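import Vale.Agent.P284.H894.V.Defs
import Vale.Agent.P284.H894.G.Spec

/-!
# P284, theorem V: statements of the blocks (FROZEN)

`X` compact Kähler, `E → X` connected Galois covering with infinite amenable group: `E` carries a
nonconstant pluriharmonic function with bounded gradient. If `X` is dominated by a holomorphic map
`ℂⁿ → X` of finite order, these functions form a finite-dimensional representation of the group with
infinite image, and the group is virtually indicable.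

Functions on `E` are families `f γ a z` on the pieces `(γ, a)` of `Coc`.
-/

open scoped Manifold ContDiff Topology Pointwise ComplexConjugate ComplexOrder
open Filter Set Metric MeasureTheory

noncomputable section

namespace Vale.Agent.P284.H894.V

open Vale.Agent.P272.K Vale.Agent.P284.H248 Vale.Agent.P284.H894 Vale.Agent.P284.H894.G

/-! ### Local operators -/

section
variable {n : ℕ}

/-- the Laplacian `Δf = Σ w^{k̄ j} ∂_j ∂_k̄ f` -/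
def lap (w : Cm n → Matrix (Fin n) (Fin n) ℂ) (f : Cm n → ℝ) (z : Cm n) : ℝ :=
  ((w z)⁻¹ * cHess f z).trace.re

/-- `⟨∂f, ∂h⟩ = Re Σ w^{k̄ j} ∂_j f ∂_k̄ h` -/
def gr (w : Cm n → Matrix (Fin n) (Fin n) ℂ) (f h : Cm n → ℝ) (z : Cm n) : ℝ :=
  (∑ j, ∑ k, (w z)⁻¹ k j * dz j (fun y => (f y : ℂ)) z * dzb k (fun y => (h y : ℂ)) z).re

/-- `⟨∂∂̄f, ∂∂̄h⟩` -/
def hh (w : Cm n → Matrix (Fin n) (Fin n) ℂ) (f h : Cm n → ℝ) (z : Cm n) : ℝ :=
  ((w z)⁻¹ * cHess f z * ((w z)⁻¹ * cHess h z)).trace.re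

/-- the density of the volume form -/
def vol (w : Cm n → Matrix (Fin n) (Fin n) ℂ) (z : Cm n) : ℝ := (w z).det.re

/-- `Σ |∂_j f|²` -/
def D1 (f : Cm n → ℝ) (z : Cm n) : ℝ := ∑ j, ‖dz j (fun y => (f y : ℂ)) z‖ ^ 2

/-- `Σ |∂_j ∂_k̄ f|²` -/
def D2 (f : Cm n → ℝ) (z : Cm n) : ℝ := ∑ j, ∑ k, ‖cHess f z j k‖ ^ 2

/-- `w` is a smooth Kähler metric on the open set `U`. -/
structure KU (U : Set (Cm n)) (w : Cm n → Matrix (Fin n) (Fin n) ℂ) : Prop where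
  isOpen : IsOpen U
  smooth : ∀ z ∈ U, ∀ i j, ContDiffAt ℝ ∞ (fun y => w y i j) z
  pos : ∀ z ∈ U, (w z).PosDef
  closed : ∀ z ∈ U, ∀ i j k, dz k (fun y => w y i j) z = dz i (fun y => w y k j) z

/-- `f` is a smooth function with compact support contained in `U`. -/
structure TU (U : Set (Cm n)) (f : Cm n → ℝ) : Prop where
  smooth : ContDiff ℝ ∞ f
  compact : HasCompactSupport f
  supp : tsupport f ⊆ U

end

/-- **V1**: integration by parts in `ℂⁿ` (Piola identity: `P272/K/INT`). -/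
def V1Stmt : Prop :=
  ∀ (n : ℕ) (U : Set (Cm n)) (w : Cm n → Matrix (Fin n) (Fin n) ℂ), KU U w →
    ∀ f h : Cm n → ℝ, TU U f → (∀ z ∈ U, ContDiffAt ℝ ∞ h z) →
      ∫ z in U, lap w f z * h z * vol w z = -∫ z in U, gr w f h z * vol w z ∧
      ∫ z in U, lap w h z * f z * vol w z = -∫ z in U, gr w f h z * vol w z

/-- **V2**: the Kähler identity in `ℂⁿ`. Proof: by V1 for the metric `w + t cHess h` near `supp f`, `t` small
(or by Piola for all `t`): `∫ Σ cof(w + t H_h)^{jk} f_{j k̄} = 0`; derivative at `t = 0`. -/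
def V2Stmt : Prop :=
  ∀ (n : ℕ) (U : Set (Cm n)) (w : Cm n → Matrix (Fin n) (Fin n) ℂ), KU U w →
    ∀ f h : Cm n → ℝ, TU U f → (∀ z ∈ U, ContDiffAt ℝ ∞ h z) →
      ∫ z in U, (lap w f z * lap w h z - hh w f h z) * vol w z = 0

/-- **VP**: pointwise linear algebra. -/
structure VPStmt : Prop where
  symm : ∀ {n : ℕ} (w : Cm n → Matrix (Fin n) (Fin n) ℂ) (f h : Cm n → ℝ) (z : Cm n),
    (w z).PosDef → gr w f h z = gr w h f z
  nonneg : ∀ {n : ℕ} (w : Cm n → Matrix (Fin n) (Fin n) ℂ) (f : Cm n → ℝ) (z : Cm n),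
    (w z).PosDef → 0 ≤ gr w f f z ∧ (ContDiffAt ℝ ∞ f z → 0 ≤ hh w f f z) ∧ 0 < vol w z
  ell : ∀ {n : ℕ} (w : Cm n → Matrix (Fin n) (Fin n) ℂ) (f : Cm n → ℝ) (z : Cm n) (lam Lam : ℝ),
    (w z).PosDef → 0 < lam →
    (∀ v : Cm n, lam * ∑ j, ‖v j‖ ^ 2 ≤ (∑ j, ∑ k, w z j k * v j * conj (v k)).re) →
    (∀ v : Cm n, (∑ j, ∑ k, w z j k * v j * conj (v k)).re ≤ Lam * ∑ j, ‖v j‖ ^ 2) →
    D1 f z ≤ Lam * gr w f f z ∧ lam * gr w f f z ≤ D1 f z ∧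
      (ContDiffAt ℝ ∞ f z → D2 f z ≤ Lam ^ 2 * hh w f f z)
  prod : ∀ {n : ℕ} (w : Cm n → Matrix (Fin n) (Fin n) ℂ) (f h : Cm n → ℝ) (z : Cm n),
    (w z).PosDef → DifferentiableAt ℝ f z → DifferentiableAt ℝ h z →
    gr w (fun y => f y * h y) (fun y => f y * h y) z ≤
      2 * f z ^ 2 * gr w h h z + 2 * h z ^ 2 * gr w f f z
  /-- change of coordinates `T` (holomorphic, invertible differential) -/
  trans : ∀ {n : ℕ} (w w' : Cm n → Matrix (Fin n) (Fin n) ℂ) (f h f' h' : Cm n → ℝ)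
    (T : Cm n → Cm n) (z : Cm n), (∀ᶠ y in 𝓝 z, DifferentiableAt ℂ T y) →
    (w z).PosDef → (w' (T z)).PosDef →
    (w z = (Matrix.of fun p i => dz i (fun y => T y p) z).transpose * w' (T z) *
      (Matrix.of fun p i => dz i (fun y => T y p) z).map (starRingEnd ℂ)) →
    ContDiffAt ℝ ∞ f' (T z) → ContDiffAt ℝ ∞ h' (T z) →
    (∀ᶠ y in 𝓝 z, f y = f' (T y)) → (∀ᶠ y in 𝓝 z, h y = h' (T y)) →
    lap w f z = lap w' f' (T z) ∧ gr w f h z = gr w' f' h' (T z) ∧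
      hh w f h z = hh w' f' h' (T z) ∧
      vol w z = vol w' (T z) * ‖(fderiv ℂ T z).det‖ ^ 2

/-! ### Families of functions on the covering -/

section
variable {n : ℕ} {Γ : Type} [Group Γ]

/-- Jacobian matrix of the change of coordinates -/
def jac (C : Coc n Γ) (a b : C.I) (z : Cm n) : Matrix (Fin n) (Fin n) ℂ :=
  Matrix.of fun p i => dz i (fun y => C.T a b y p) z

/-- A Kähler metric on the base (invariant metric on the covering). -/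
structure KM (C : Coc n Γ) where
  w : C.I → Cm n → Matrix (Fin n) (Fin n) ℂ
  ku : ∀ a, KU (C.Ω a) (w a)
  change : ∀ a b, ∀ z ∈ C.O a b,
    w a z = (jac C a b z).transpose * w b (C.T a b z) * (jac C a b z).map (starRingEnd ℂ)
  lam : ℝ
  lam_pos : 0 < lam
  Lam : ℝ
  low : ∀ a, ∀ z ∈ C.Ω a, ∀ v : Cm n,
    lam * ∑ j, ‖v j‖ ^ 2 ≤ (∑ j, ∑ k, w a z j k * v j * conj (v k)).re
  up : ∀ a, ∀ z ∈ C.Ω a, ∀ v : Cm n,
    (∑ j, ∑ k, w a z j k * v j * conj (v k)).re ≤ Lam * ∑ j, ‖v j‖ ^ 2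
  vol_up : ∀ a, ∀ z ∈ C.Ω a, vol (w a) z ≤ Lam
  vol_low : ∀ a, ∀ z ∈ C.Ω a, lam ≤ vol (w a) z

/-- `f` is a smooth function with compact support on the covering. -/
structure IsTst (C : Coc n Γ) (f : Γ → C.I → Cm n → ℝ) : Prop where
  smooth : ∀ γ a, ∀ z ∈ C.Ω a, ContDiffAt ℝ ∞ (f γ a) z
  compat : ∀ γ a b, ∀ z ∈ C.O a b, f γ a z = f (γ * C.κ a b z) b (C.T a b z)
  fin : {γ : Γ | ∃ a, ∃ z ∈ C.V a, f γ a z ≠ 0}.Finite
  out : ∀ γ a, ∀ z ∉ C.Ω a, f γ a z = 0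

/-- `G` is a continuous function with compact support on the covering. -/
structure Fam (C : Coc n Γ) (G : Γ → C.I → Cm n → ℝ) : Prop where
  cont : ∀ γ a, ContinuousOn (G γ a) (C.Ω a)
  compat : ∀ γ a b, ∀ z ∈ C.O a b, G γ a z = G (γ * C.κ a b z) b (C.T a b z)
  fin : {γ : Γ | ∃ a, ∃ z ∈ C.V a, G γ a z ≠ 0}.Finite

/-- the integral over the covering (with the volume form of the metric) -/
def Int {C : Coc n Γ} (P : PU C) (K : KM C) (G : Γ → C.I → Cm n → ℝ) : ℝ :=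
  ∑' γ, ∑ a, ∫ z in C.V a, P.χ a a z * G γ a z * vol (K.w a) z

/-- the Laplacian of a function on the covering -/
def Lap {C : Coc n Γ} (K : KM C) (f : Γ → C.I → Cm n → ℝ) (γ : Γ) (a : C.I) : Cm n → ℝ :=
  (C.Ω a).indicator (lap (K.w a) (f γ a))

/-- `⟨∂f, ∂h⟩` -/
def Gr {C : Coc n Γ} (K : KM C) (f h : Γ → C.I → Cm n → ℝ) (γ : Γ) (a : C.I) : Cm n → ℝ :=
  gr (K.w a) (f γ a) (h γ a)

/-- `⟨∂∂̄f, ∂∂̄h⟩` -/
def Hh {C : Coc n Γ} (K : KM C) (f h : Γ → C.I → Cm n → ℝ) (γ : Γ) (a : C.I) : Cm n → ℝ :=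
  hh (K.w a) (f γ a) (h γ a)

end

/-- **V3**: the integral does not see the partition of unity (change of variables `T a b`). -/
structure V3Stmt : Prop where
  lin : ∀ {n : ℕ} {Γ : Type} [Group Γ] (C : Coc n Γ) (P : PU C) (K : KM C)
    (G H : Γ → C.I → Cm n → ℝ) (r s : ℝ), Fam C G → Fam C H →
    Int P K (fun γ a z => r * G γ a z + s * H γ a z) = r * Int P K G + s * Int P K H
  mono : ∀ {n : ℕ} {Γ : Type} [Group Γ] (C : Coc n Γ) (P : PU C) (K : KM C)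
    (G H : Γ → C.I → Cm n → ℝ), Fam C G → Fam C H → (∀ γ a, ∀ z ∈ C.V a, G γ a z ≤ H γ a z) →
    Int P K G ≤ Int P K H
  /-- `G` supported in the ball number `b` -/
  piece : ∀ {n : ℕ} {Γ : Type} [Group Γ] (C : Coc n Γ) (P : PU C) (K : KM C)
    (G : Γ → C.I → Cm n → ℝ) (b : C.I) (Q : Set (Cm n)), Fam C G → IsCompact Q → Q ⊆ C.V b →
    (∀ γ a, ∀ z ∈ C.Ω a, G γ a z ≠ 0 → z ∈ C.O a b ∧ C.T a b z ∈ Q) →
    Int P K G = ∑' γ, ∫ z in C.V b, G γ b z * vol (K.w b) z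
  /-- one chart is dominated by the total integral -/
  le : ∀ {n : ℕ} {Γ : Type} [Group Γ] (C : Coc n Γ) (P : PU C) (K : KM C)
    (G : Γ → C.I → Cm n → ℝ), Fam C G → (∀ γ a, ∀ z ∈ C.Ω a, 0 ≤ G γ a z) → ∀ a,
    ∑' γ, ∫ z in C.V a, G γ a z * vol (K.w a) z ≤ Int P K G
  /-- the total integral is dominated by the small balls -/
  ge : ∀ {n : ℕ} {Γ : Type} [Group Γ] (C : Coc n Γ) (P : PU C) (K : KM C)
    (G : Γ → C.I → Cm n → ℝ), Fam C G → (∀ γ a, ∀ z ∈ C.Ω a, 0 ≤ G γ a z) →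
    Int P K G ≤ Fintype.card C.I * ∑' γ, ∑ a, ∫ z in C.W a, G γ a z * vol (K.w a) z

/-- **V4**: test functions supported in one piece (extension by `0`: `C.closed`). -/
def V4Stmt : Prop :=
  ∀ (n : ℕ) (Γ : Type) [Group Γ] (C : Coc n Γ) (γ₀ : Γ) (b : C.I) (F : Cm n → ℝ), TU (C.V b) F →
    ∃ f : Γ → C.I → Cm n → ℝ, IsTst C f ∧
      (∀ γ a z, f γ a z ≠ 0 → z ∈ C.O a b ∧ γ * C.κ a b z = γ₀ ∧ C.T a b z ∈ tsupport F) ∧
      (∀ z ∈ C.Ω b, f γ₀ b z = F z) ∧ ∀ γ, γ ≠ γ₀ → ∀ z ∈ C.Ω b, f γ b z = 0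

/-- Conclusion of V5: the global identities. -/
structure V5Concl : Prop where
  fam : ∀ {n : ℕ} {Γ : Type} [Group Γ] (C : Coc n Γ) (K : KM C) (f h : Γ → C.I → Cm n → ℝ),
    IsTst C f → IsTst C h → Fam C (fun γ a z => f γ a z * h γ a z) ∧ Fam C (Gr K f h) ∧
      Fam C (Hh K f h) ∧ IsTst C (Lap K f) ∧ IsTst C (fun γ a z => f γ a z * h γ a z)
  ibp : ∀ {n : ℕ} {Γ : Type} [Group Γ] (C : Coc n Γ) (P : PU C) (K : KM C)
    (f h : Γ → C.I → Cm n → ℝ), IsTst C f → IsTst C h →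
    Int P K (fun γ a z => Lap K f γ a z * h γ a z) = -Int P K (Gr K f h)
  kahler : ∀ {n : ℕ} {Γ : Type} [Group Γ] (C : Coc n Γ) (P : PU C) (K : KM C)
    (f h : Γ → C.I → Cm n → ℝ), IsTst C f → IsTst C h →
    Int P K (fun γ a z => Lap K f γ a z * Lap K h γ a z) = Int P K (Hh K f h)

/-- **V5**: partition of unity: `f = Σ_b χ_b f`, `χ_b f` is supported in the ball number `b`. -/
def V5Stmt : Prop := V1Stmt → V2Stmt → VPStmt → V3Stmt → V5Concl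

/-- **V6**: local Friedrichs inequality: an `L²` function with `(λ - Δ) g = 0` in the weak sense satisfies
the energy inequality. (Copy of parts 1-4 of `P245/H464/ESA.lean`, `local_ineq`, for a general drift
`b` in place of `r x_j`; here the drift is `0` near `supp ζ`, by Piola.) -/
def V6Stmt : Prop :=
  ∀ (n : ℕ) (c : Cm n) (R R' : ℝ), 0 < R → R < R' → ∀ w : Cm n → Matrix (Fin n) (Fin n) ℂ,
    KU (ball c R') w → ∀ (g : Cm n → ℝ) (l : ℝ), 0 < l → MemLp g 2 (volume.restrict (ball c R)) →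
    (∀ F, TU (ball c R) F → ∫ z in ball c R, g z * (l * F z - lap w F z) * vol w z = 0) →
    ∀ ζ, TU (ball c R) ζ →
      l * ∫ z in ball c R, ζ z ^ 2 * g z ^ 2 * vol w z ≤
        ∫ z in ball c R, gr w ζ ζ z * g z ^ 2 * vol w z

/-- Conclusion of V7: the range of `λ - Δ` is dense for large `λ`. -/
def V7Concl : Prop :=
  ∀ (n : ℕ) (Γ : Type) [Group Γ] (C : Coc n Γ) (P : PU C) (K : KM C), ∃ l₀ : ℝ, 0 < l₀ ∧
    ∀ l : ℝ, l₀ ≤ l → ∀ f, IsTst C f → ∀ δ : ℝ, 0 < δ → ∃ v, IsTst C v ∧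
      Int P K (fun γ a z => (l * v γ a z - Lap K v γ a z - f γ a z) ^ 2) < δ

/-- **V7**. Minimising sequence `h_j = f - (λ - Δ) v_j`: Cauchy, almost orthogonal to the range. `L²` limits
`g γ a` on the balls `V a`; weak equation in every ball (V4); V6 with `ζ = χ_a ψ`, `ψ` a cut-off
`φ_F = Σ_b χ_b [γ κ ∈ F]`; sum over the pieces: `(λ/|I| - C) ∫ ψ² g² ≤ C ∫_{∂F} g²`; `F ↑ Γ`. -/
def V7Stmt : Prop := VPStmt → V3Stmt → V4Stmt → V5Concl → V6Stmt → V7Concl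

/-- **V8**: abstract lemma. (Large `λ` ⇒ all `λ > 0`: Neumann series or `P245.H464.Abs.dense_smul`. Then: if
`ip (L f) (L f) ≥ ε₀ en f f` for all `f`, take `v` with `λ v - L v ≈ f`, `λ → 0`:
`ip f f - ip f (λ v) ≈ -ip f (L v) = en f v ≤ √(en f f) √(en v v) ≤ √(en f f / ε₀) ‖L v‖`, `‖L v‖ ≤ ‖f‖`, and
`λ v ⇀ 0` by `P`; so `ε₀ ip f f ≤ en f f`, contradiction to `F`.) -/
def V8Stmt : Prop :=
  ∀ (V : Type) [AddCommGroup V] [Module ℝ V] (ip en : V →ₗ[ℝ] V →ₗ[ℝ] ℝ) (L : V →ₗ[ℝ] V),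
    (∀ f h, ip f h = ip h f) → (∀ f, 0 ≤ ip f f) → (∀ f h, en f h = en h f) → (∀ f, 0 ≤ en f f) →
    (∀ f h, ip (L f) h = -en f h) →
    (∃ l₀ : ℝ, 0 < l₀ ∧ ∀ l, l₀ ≤ l → ∀ f, ∀ δ : ℝ, 0 < δ → ∃ v,
      ip (l • v - L v - f) (l • v - L v - f) < δ) →
    (∀ h : ℕ → V, (∃ B : ℝ, ∀ j, ip (h j) (h j) ≤ B) →
      Tendsto (fun j => en (h j) (h j)) atTop (𝓝 0) → ∀ f, Tendsto (fun j => ip (h j) f) atTop (𝓝 0)) →
    (∀ ε : ℝ, 0 < ε → ∃ f, en f f < ε * ip f f) →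
    ∀ ε : ℝ, 0 < ε → ∃ f, ip (L f) (L f) < ε * en f f

/-- **V11**: mollification in charts. `mo η f z = ∫ η(t) f(z + t) dt`. Proof of m1, m4: `η(t) = q(Σ|t_j|²)`,
`Θ(t) = Q(Σ|t_j|²)`, `Q' = -q`: `∂Θ/∂t̄_j = -t_j η`; `d/ds ∫ η(t) f(z + s t) dt =
2 s ∫ Θ(t) Σ_j f_{j j̄}(z + s t) dt`; its `∂_i` is `-2 Σ_j ∫ (∂Θ/∂t_j)(t) f_{i j̄}(z + s t) dt`. -/
def mo {n : ℕ} (η f : Cm n → ℝ) (z : Cm n) : ℝ := ∫ t, η t * f (z + t)

/-- see `mo` -/
def V11Stmt : Prop :=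
  ∀ (n : ℕ) (δ : ℝ), 0 < δ → ∃ (η : Cm n → ℝ) (B : ℝ), 0 < B ∧ ContDiff ℝ ∞ η ∧ (∀ t, 0 ≤ η t) ∧
    (∀ t, δ ≤ ‖t‖ → η t = 0) ∧ ∫ t, η t = 1 ∧
    ∀ (c : Cm n) (r R : ℝ), 0 < r → r + δ ≤ R → ∀ f : Cm n → ℝ,
      (∀ z ∈ closedBall c R, ContDiffAt ℝ ∞ f z) →
      (∀ z ∈ ball c r, ContDiffAt ℝ ∞ (mo η f) z) ∧
      ∫ z in ball c r, (f z - mo η f z) ^ 2 ≤ B * ∫ z in ball c R, D1 f z ∧
      ∫ z in ball c r, D1 (fun y => f y - mo η f y) z ≤ B * ∫ z in ball c R, D2 f z ∧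
      ∫ z in ball c r, (f z - mo η f z) ^ 2 ≤ B * ∫ z in ball c R, D2 f z ∧
      (∀ z ∈ ball c r, D2 (mo η f) z ≤ B * ∫ z in ball c R, D2 f z) ∧
      (∀ z ∈ ball c r, ‖fderiv ℝ (mo η f) z‖ ^ 2 ≤ B * ∫ z in ball c R, D1 f z) ∧
      (∀ z ∈ ball c r, ∀ z' ∈ ball c r, ‖fderiv ℝ (mo η f) z - fderiv ℝ (mo η f) z'‖ ^ 2 ≤
        B * ‖z - z'‖ ^ 2 * ∫ z in ball c R, D1 f z)

/-- **V12**: connectedness by the balls of radius `2 r` (segments from the centres, `C.cover`). -/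
def V12Stmt : Prop :=
  ∀ (n : ℕ) (Γ : Type) [Group Γ] (C : Coc n Γ) (Q : Γ → C.I → Prop),
    (∀ γ a b z, z ∈ C.O a b → z ∈ ball (C.c a) (2 * C.r a) →
      C.T a b z ∈ ball (C.c b) (2 * C.r b) → Q γ a → Q (γ * C.κ a b z) b) →
    ∀ γ a γ' b, Q γ a → Q γ' b

/-- Conclusion of V9 -/
def V9Concl : Prop :=
  ∀ (n : ℕ) (Γ : Type) [Group Γ] [Infinite Γ] (C : Coc n Γ) (P : PU C) (K : KM C)
    (h : ℕ → Γ → C.I → Cm n → ℝ), (∀ j, IsTst C (h j)) →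
    (∃ B : ℝ, ∀ j, Int P K (fun γ a z => h j γ a z ^ 2) ≤ B) →
    Tendsto (fun j => Int P K (Gr K (h j) (h j))) atTop (𝓝 0) → ∀ f, IsTst C f →
    Tendsto (fun j => Int P K (fun γ a z => h j γ a z * f γ a z)) atTop (𝓝 0)

/-- **V9**: bounded in `L²` and energy `→ 0` implies weakly `→ 0` (`Γ` infinite). On every ball `2 r` the
mollified function is almost constant; the constants of neighbours are close (V12); infinitely many
pieces have (almost) the same constant, and the sum of their squares is bounded. -/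
def V9Stmt : Prop := VPStmt → V3Stmt → V5Concl → V11Stmt → V12Stmt → V9Concl

/-- Conclusion of V10 -/
def V10Concl : Prop :=
  ∀ (n : ℕ) (Γ : Type) [Group Γ] (C : Coc n Γ) (P : PU C) (K : KM C), Folner Γ →
    ∀ ε : ℝ, 0 < ε → ∃ f, IsTst C f ∧
      Int P K (Gr K f f) < ε * Int P K (fun γ a z => f γ a z ^ 2)

/-- **V10**: `φ_F γ a z = Σ_b χ_b a z [γ κ_{ab}(z) ∈ F]`, `F` almost invariant under RIGHT translations
(inverse of a Følner set). -/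
def V10Stmt : Prop := VPStmt → V3Stmt → V5Concl → V10Concl

/-- Almost pluriharmonic functions with compact support. -/
def ExConcl : Prop :=
  ∀ (n : ℕ) (Γ : Type) [Group Γ] [Infinite Γ] (C : Coc n Γ) (P : PU C) (K : KM C), Folner Γ →
    ∀ ε : ℝ, 0 < ε → ∃ f, IsTst C f ∧ Int P K (Hh K f f) < ε * Int P K (Gr K f f)

/-- **V13**: assembly (`V :=` the submodule of test functions). -/
def V13Stmt : Prop :=
  VPStmt → V3Stmt → V5Concl → V7Concl → V8Stmt → V9Concl → V10Concl → ExConcl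

/-- A pluriharmonic function with bounded gradient, on the balls of radius `2 r`. -/
structure LimFam {n : ℕ} {Γ : Type} [Group Γ] (C : Coc n Γ) (u : Γ → C.I → Cm n → ℝ) (B : ℝ) :
    Prop where
  smooth : ∀ γ a, ∀ z ∈ ball (C.c a) (2 * C.r a), ContDiffAt ℝ ∞ (u γ a) z
  hess : ∀ γ a, ∀ z ∈ ball (C.c a) (2 * C.r a), cHess (u γ a) z = 0
  compat : ∀ γ a b z, z ∈ C.O a b → z ∈ ball (C.c a) (2 * C.r a) →
    C.T a b z ∈ ball (C.c b) (2 * C.r b) → u γ a z = u (γ * C.κ a b z) b (C.T a b z)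
  grad : ∀ γ a, ∀ z ∈ ball (C.c a) (2 * C.r a), ‖fderiv ℝ (u γ a) z‖ ≤ B
  nonconst : ∃ γ a, ∃ z ∈ ball (C.c a) (2 * C.r a), fderiv ℝ (u γ a) z ≠ 0

/-- Conclusion of V14 -/
def V14Concl : Prop :=
  ∀ (n : ℕ) (Γ : Type) [Group Γ] (C : Coc n Γ) (P : PU C) (K : KM C),
    (∀ ε : ℝ, 0 < ε → ∃ f, IsTst C f ∧ Int P K (Hh K f f) < ε * Int P K (Gr K f f)) →
    ∃ u B, LimFam C u B

/-- **V14**: the limit. `f_k` with energy `1` and `Int (Hh f_k f_k) → 0`. V3.ge, V11.m1: some `b`, `z₀ ∈ W b`, real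
direction `e` with `Σ_γ |D_e (mo f_k γ b)(z₀)|² ≥ c₁`; `v(g) = D_e(mo f_k g⁻¹ b)(z₀)` normalised in `ℓ²`,
`u_k γ a z = Σ_g v(g) f_k (g⁻¹ γ) a z` (finite sum). On every ball `V a`: `∫ D1 u_k ≤ C`, `∫ D2 u_k → 0` (Cauchy-
Schwarz, V3.le). `mo u_k - const_k` is locally bounded (V12), limit along an ultrafilter; `D2 → 0` and the
mean value property (roots of unity, or a subsequence) give `cHess = 0`; compatibility since
`∫ (u_k - mo u_k)² → 0`. -/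
def V14Stmt : Prop := VPStmt → V3Stmt → V5Concl → V11Stmt → V12Stmt → V14Concl

/-! ### The covering space -/

/-- **V15**: a Kähler metric of `X` gives `KM`; pieces of a Galois covering; from `LimFam` to `E`
(`H639/G5.lean`: `sheet_ev`, `exists_sheet`, `uOf`). -/
def V15Stmt : Prop :=
  ∀ (n : ℕ) (X : Type) [TopologicalSpace X] [T2Space X] [CompactSpace X] [ConnectedSpace X]
    [ChartedSpace (Cm n) X] [IsManifold 𝓘(ℂ, Cm n) ω X]
    (w : Chart n X → Cm n → Matrix (Fin n) (Fin n) ℂ), IsKahler w →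
    ∀ (E Γ : Type) [TopologicalSpace E] [ConnectedSpace E] [Group Γ] [MulAction Γ E] (p : E → X),
    IsGalois Γ p → ∃ (C : Coc n Γ) (_ : PU C) (_ : KM C), Group.FG Γ ∧
      ∀ u B, LimFam C u B → ∃ (v : E → ℝ) (B' : ℝ), IsPHB p w v B' ∧ ∃ y y', v y ≠ v y'

/-- Conclusion of part (1) -/
def Part1 : Prop :=
  ∀ (n : ℕ) (X : Type) [TopologicalSpace X] [T2Space X] [CompactSpace X] [ConnectedSpace X]
    [ChartedSpace (Cm n) X] [IsManifold 𝓘(ℂ, Cm n) ω X]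
    (w : Chart n X → Cm n → Matrix (Fin n) (Fin n) ℂ), IsKahler w →
    ∀ (E Γ : Type) [TopologicalSpace E] [ConnectedSpace E] [Group Γ] [MulAction Γ E] (p : E → X),
    IsGalois Γ p → Infinite Γ → Folner Γ →
    ∃ (v : E → ℝ) (B : ℝ), IsPHB p w v B ∧ ∃ y y', v y ≠ v y'

/-- **V16**: finite dimension. Lift `Φ` to `E`; `u ∘ Φ~` is pluriharmonic on `ℂⁿ`, `∂_j (u ∘ Φ~)` is entire with
`∫_{|ζ|<r} |∂_j (u ∘ Φ~)|² ≤ C r^ρ`, so a polynomial of bounded degree; if all are `0`, `u` is constant near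
a point where `dΦ` is invertible, hence constant. -/
def V16Stmt : Prop :=
  ∀ (n : ℕ) (X : Type) [TopologicalSpace X] [T2Space X] [CompactSpace X] [ConnectedSpace X]
    [ChartedSpace (Cm n) X] [IsManifold 𝓘(ℂ, Cm n) ω X]
    (w : Chart n X → Cm n → Matrix (Fin n) (Fin n) ℂ), IsHermitian w →
    ∀ (E : Type) [TopologicalSpace E] [ConnectedSpace E] (p : E → X), IsCoveringMap p →
    Function.Surjective p → ∀ Φ : Cm n → X, FiniteOrder w Φ →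
    ∃ V : Submodule ℝ (E → ℝ), FiniteDimensional ℝ V ∧ ∀ u, u ∈ V ↔ ∃ B, IsPHB p w u B

/-- **V17**: infinite image. If the image is finite, `u` is invariant under a subgroup of finite index, so
`|u|` attains its maximum on `E`, and `u` is constant (maximum principle). -/
def V17Stmt : Prop :=
  ∀ (n : ℕ) (X : Type) [TopologicalSpace X] [T2Space X] [CompactSpace X] [ConnectedSpace X]
    [ChartedSpace (Cm n) X] [IsManifold 𝓘(ℂ, Cm n) ω X]
    (w : Chart n X → Cm n → Matrix (Fin n) (Fin n) ℂ), IsHermitian w →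
    ∀ (E Γ : Type) [TopologicalSpace E] [ConnectedSpace E] [Group Γ] [MulAction Γ E] (p : E → X),
    IsGalois Γ p → ∀ V : Submodule ℝ (E → ℝ), (∀ u, u ∈ V ↔ ∃ B, IsPHB p w u B) →
    ∀ v ∈ V, (∃ y y', v y ≠ v y') →
    ∃ ρ : Γ →* (V →ₗ[ℝ] V), (∀ γ u y, (ρ γ u : E → ℝ) y = (u : E → ℝ) (γ⁻¹ • y)) ∧
      (Set.range ρ).Infinite

/-- **V18**: group theory (`P260.F.amenable_linear`): the image is virtually solvable, infinite, finitely
generated, so virtually indicable. -/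
def V18Stmt : Prop :=
  ∀ (Γ : Type) [Group Γ], Group.FG Γ → Folner Γ → ∀ (V : Type) [AddCommGroup V] [Module ℝ V]
    [FiniteDimensional ℝ V] (ρ : Γ →* (V →ₗ[ℝ] V)), (Set.range ρ).Infinite → VirtIndicable Γ

/-- Conclusion of part (2) -/
def Part2 : Prop :=
  ∀ (n : ℕ) (X : Type) [TopologicalSpace X] [T2Space X] [CompactSpace X] [ConnectedSpace X]
    [ChartedSpace (Cm n) X] [IsManifold 𝓘(ℂ, Cm n) ω X]
    (w : Chart n X → Cm n → Matrix (Fin n) (Fin n) ℂ), IsKahler w →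
    ∀ Φ : Cm n → X, FiniteOrder w Φ →
    ∀ (E Γ : Type) [TopologicalSpace E] [ConnectedSpace E] [Group Γ] [MulAction Γ E] (p : E → X),
    IsGalois Γ p → Infinite Γ → Folner Γ → VirtIndicable Γ

/-- The fundamental group version of part (2) (universal covering, as in G9). -/
def Part3 : Prop :=
  ∀ (n : ℕ) (X : Type) [TopologicalSpace X] [T2Space X] [CompactSpace X] [ConnectedSpace X]
    [ChartedSpace (Cm n) X] [IsManifold 𝓘(ℂ, Cm n) ω X]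
    (w : Chart n X → Cm n → Matrix (Fin n) (Fin n) ℂ), IsKahler w →
    ∀ Φ : Cm n → X, FiniteOrder w Φ → ∀ x : X, Infinite (FundamentalGroup X x) →
    Folner (FundamentalGroup X x) → VirtIndicable (FundamentalGroup X x)

/-- **V19**: `Part2` implies `Part3` (universal covering; `π₁ = Γᵐᵒᵖ`; Følner's condition for the opposite
group: inverse sets need care: use `SubexpGrowth`-free argument, or right Følner sets). -/
def V19Stmt : Prop := Part2 → Part3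

theorem part1_of (h15 : V15Stmt) (hE : ExConcl) (h14 : V14Concl) : Part1 := by
  intro n X _ _ _ _ _ _ w hw E Γ _ _ _ _ p hp hi hf
  obtain ⟨C, P, K, -, h⟩ := h15 n X w hw E Γ p hp
  obtain ⟨u, B, hu⟩ := h14 n Γ C P K (hE n Γ C P K hf)
  exact h u B hu

theorem part2_of (h15 : V15Stmt) (h1 : Part1) (h16 : V16Stmt) (h17 : V17Stmt) (h18 : V18Stmt) :
    Part2 := by
  intro n X _ _ _ _ _ _ w hw Φ hΦ E Γ _ _ _ _ p hp hi hf
  obtain ⟨C, P, K, hfg, -⟩ := h15 n X w hw E Γ p hp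
  obtain ⟨v, B, hv, hne⟩ := h1 n X w hw E Γ p hp hi hf
  obtain ⟨V, hV, hmem⟩ := h16 n X w hw.toIsHermitian E p hp.cov hp.surj Φ hΦ
  obtain ⟨ρ, -, hρ⟩ := h17 n X w hw.toIsHermitian E Γ p hp V hmem v ((hmem v).2 ⟨B, hv⟩) hne
  exact h18 Γ hfg hf V ρ hρ

end Vale.Agent.P284.H894.V
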