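import Vale.Agent.P284.H894.V.Defs
import Vale.Agent.P284.H894.G.Amen

/-!
# P284 (helper894): short names for the hypotheses and conclusions of theorems V and W
-/

open scoped Manifold ContDiff
open Filter Set Metric

noncomputable section

namespace Vale.Agent.P284.H894.V

open Vale.Agent.P272.K Vale.Agent.P284.H894.G

section
variable {n : ℕ} {X : Type} [TopologicalSpace X] [ChartedSpace (Cm n) X]

/-- `Φ : ℂⁿ → X` is holomorphic, nondegenerate (its Jacobian determinant in a chart is nonzero at some
point) and of finite order: the energy of the polydiscs of radius `r` is at most `C r ^ ρ`. -/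
structure HasFiniteOrder (w : Chart n X → Cm n → Matrix (Fin n) (Fin n) ℂ) (Φ : Cm n → X) :
    Prop where
  holo : ContMDiff 𝓘(ℂ, Cm n) 𝓘(ℂ, Cm n) ω Φ
  nondeg : ∃ ζ, (Matrix.of fun k j => dz j (fun ξ => chartAt (Cm n) (Φ ζ) (Φ ξ) k) ζ).det ≠ 0
  order : ∃ C ρ : ℝ, ∀ r : ℝ, 1 ≤ r →
    ∫ ζ in ball (0 : Cm n) r, enDens w Φ ζ ≤ C * r ^ ρ

/-- The covering `E` carries a nonconstant pluriharmonic function with bounded gradient. -/
def HasPHB {E : Type} [TopologicalSpace E] (p : E → X)
    (w : Chart n X → Cm n → Matrix (Fin n) (Fin n) ℂ) : Prop :=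
  ∃ (v : E → ℝ) (B : ℝ), IsPHB p w v B ∧ ∃ y y', v y ≠ v y'

variable (n) in
/-- All bounded plurisubharmonic functions on the covering `E` are constant. -/
def PshLiouville {E : Type} [TopologicalSpace E] (p : E → X) : Prop :=
  ∀ u : E → ℝ, IsPsh (n := n) p u → (∃ B : ℝ, ∀ y, |u y| ≤ B) → ∀ y y', u y = u y'

/-- Every connected Galois covering of `X` with infinite amenable group carries a nonconstant
pluriharmonic function with bounded gradient. -/
def AmenableHarmonic (w : Chart n X → Cm n → Matrix (Fin n) (Fin n) ℂ) : Prop :=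
  ∀ (E Γ : Type) [TopologicalSpace E] [ConnectedSpace E] [Group Γ] [MulAction Γ E] (p : E → X),
    IsGalois Γ p → Infinite Γ → Folner Γ → HasPHB p w

/-- Every connected Galois covering of `X` with infinite group, on which bounded plurisubharmonic
functions are constant, carries a nonconstant pluriharmonic function with bounded gradient. -/
def LiouvilleHarmonic (w : Chart n X → Cm n → Matrix (Fin n) (Fin n) ℂ) : Prop :=
  ∀ (E Γ : Type) [TopologicalSpace E] [ConnectedSpace E] [Group Γ] [MulAction Γ E] (p : E → X),
    IsGalois Γ p → Infinite Γ → PshLiouville n p → HasPHB p w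

variable (n X) in
/-- There are an open set `U` containing `x` such that `π₁(U, x) → π₁(X, x)` is onto, and a countable
set `Q`, such that every point of `U` is joined by a chain of entire curves to a point of `Q`. -/
def CurveConnected (x : X) : Prop :=
  ∃ U Q : Set X, IsOpen U ∧ x ∈ U ∧
    (∀ c : Path x x, ∃ c' : Path x x, c.Homotopic c' ∧ ∀ t, c' t ∈ U) ∧
    Q.Countable ∧ ∀ y ∈ U, ∃ q ∈ Q, Chain n X y q

end

/-- The group of every connected Galois covering of `X`, if infinite and amenable, has a subgroup of
finite index which maps onto `ℤ`. -/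
def AmenableIndicable (X : Type) [TopologicalSpace X] : Prop :=
  ∀ (E Γ : Type) [TopologicalSpace E] [ConnectedSpace E] [Group Γ] [MulAction Γ E] (p : E → X),
    IsGalois Γ p → Infinite Γ → Folner Γ → VirtIndicable Γ

end Vale.Agent.P284.H894.V
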