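import Vale.Agent.P284.H894.V.Spec

/-! # P284 (helper894), block V12 -/

open scoped Manifold ContDiff Topology
open Filter Set Metric

noncomputable section

namespace Vale.Agent.P284.H894.V

open Vale.Agent.P272.K Vale.Agent.P284.H248 Vale.Agent.P284.H894 Vale.Agent.P284.H894.G

variable {n : ℕ} {Γ : Type} [Group Γ]

/-- closed under steps through the balls of radius `2 r` -/
def Stp (C : Coc n Γ) (Q : Γ → C.I → Prop) : Prop :=
  ∀ γ a b z, z ∈ C.O a b → z ∈ ball (C.c a) (2 * C.r a) →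
    C.T a b z ∈ ball (C.c b) (2 * C.r b) → Q γ a → Q (γ * C.κ a b z) b

theorem T_back (C : Coc n Γ) {a b : C.I} {z : Cm n} (hz : z ∈ C.O a b) :
    C.T b a (C.T a b z) = z := by
  have h0 : C.T a b z ∈ C.O b a := C.T_mem a b z hz
  have h1 : z ∈ C.O a a := C.trans_mem a b a z hz h0
  rw [← C.trans_T a b a z hz h0, C.T_self a z h1]

theorem κ_back (C : Coc n Γ) {a b : C.I} {z : Cm n} (hz : z ∈ C.O a b) :
    C.κ a b z * C.κ b a (C.T a b z) = 1 := by
  have h0 : C.T a b z ∈ C.O b a := C.T_mem a b z hz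
  have h1 : z ∈ C.O a a := C.trans_mem a b a z hz h0
  rw [← C.trans_κ a b a z hz h0, C.κ_self a z h1]

theorem mem_O_of (C : Coc n Γ) {a b d : C.I} {z : Cm n} (hb : z ∈ C.O a b) (hd : z ∈ C.O a d) :
    C.T a b z ∈ C.O b d := by
  have h0 : C.T a b z ∈ C.O b a := C.T_mem a b z hb
  refine C.trans_mem b a d _ h0 ?_
  rw [T_back C hb]
  exact hd

theorem Stp.not {C : Coc n Γ} {Q : Γ → C.I → Prop} (h : Stp C Q) : Stp C (fun γ a => ¬ Q γ a) := by
  intro γ a b z hz h1 h2 hn hq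
  have h3 := h (γ * C.κ a b z) b a (C.T a b z) (C.T_mem a b z hz) h2
    (by rw [T_back C hz]; exact h1) hq
  rw [mul_assoc, κ_back C hz, mul_one] at h3
  exact hn h3

theorem Stp.path {C : Coc n Γ} {Q : Γ → C.I → Prop} (h : Stp C Q) {γ : Γ} {a : C.I} {z : Cm n}
    (hz : z ∈ C.Ω a) (hQ : Q γ a) (d : C.I) (hd : z ∈ C.O a d)
    (hd2 : C.T a d z ∈ ball (C.c d) (2 * C.r d)) : Q (γ * C.κ a d z) d := by
  have hr := C.r_pos a
  set g : ℝ → Cm n := fun t => C.c a + t • (z - C.c a) with hg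
  have hgc : Continuous g := by fun_prop
  have hΩ : ∀ t ∈ Icc (0 : ℝ) 1, g t ∈ C.Ω a := by
    intro t ht
    have h1 : dist z (C.c a) < 4 * C.r a := hz
    show dist (C.c a + t • (z - C.c a)) (C.c a) < 4 * C.r a
    rw [dist_eq_norm, add_sub_cancel_left, norm_smul, Real.norm_eq_abs, abs_of_nonneg ht.1,
      ← dist_eq_norm]
    nlinarith [ht.2, dist_nonneg (x := z) (y := C.c a)]
  set S : ℝ → Prop := fun t => ∀ d, g t ∈ C.O a d → C.T a d (g t) ∈ ball (C.c d) (2 * C.r d) →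
    Q (γ * C.κ a d (g t)) d with hS
  have h0 : S 0 := by
    intro d h1 h2
    have h3 : g 0 = C.c a := by simp [hg]
    refine h γ a d (g 0) h1 ?_ h2 hQ
    rw [h3]
    exact mem_ball_self (by linarith)
  have key : ∀ t ∈ Icc (0 : ℝ) 1, ∃ P : Prop, ∀ᶠ s in 𝓝[Icc (0 : ℝ) 1] t, (S s ↔ P) := by
    intro t ht
    obtain ⟨b, hb, hb2⟩ := C.cover a (g t) (hΩ t ht)
    refine ⟨Q (γ * C.κ a b (g t)) b, ?_⟩
    have hTc : ContinuousAt (C.T a b) (g t) :=
      ((C.T_holo a b).differentiableAt ((C.O_open a b).mem_nhds hb)).continuousAt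
    have e1 : ∀ᶠ y in 𝓝 (g t), y ∈ C.O a b ∧ C.T a b y ∈ ball (C.c b) (2 * C.r b) ∧
        C.κ a b y = C.κ a b (g t) := by
      have e2 : ∀ᶠ y in 𝓝 (g t), C.T a b y ∈ ball (C.c b) (2 * C.r b) :=
        hTc.eventually (isOpen_ball.mem_nhds (ball_subset_ball (by linarith [C.r_pos b]) hb2))
      filter_upwards [(C.O_open a b).mem_nhds hb, e2, C.κ_loc a b (g t) hb] with y h1 h2 h3
      exact ⟨h1, h2, h3⟩
    have e3 : ∀ᶠ s in 𝓝 t, g s ∈ C.O a b ∧ C.T a b (g s) ∈ ball (C.c b) (2 * C.r b) ∧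
        C.κ a b (g s) = C.κ a b (g t) := hgc.continuousAt.eventually e1
    filter_upwards [mem_nhdsWithin_of_mem_nhds e3] with s hs
    obtain ⟨h1, h2, h3⟩ := hs
    constructor
    · intro hs
      have := hs b h1 h2
      rwa [h3] at this
    · intro hq d h4 h5
      have h6 := h (γ * C.κ a b (g t)) b d (C.T a b (g s)) (mem_O_of C h1 h4) h2
        (by rw [← C.trans_T a b d _ h1 (mem_O_of C h1 h4)]; exact h5) hq
      rwa [← h3, mul_assoc, ← C.trans_κ a b d _ h1 (mem_O_of C h1 h4)] at h6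
  have h1 : S 1 := by
    refine (isPreconnected_Icc (a := (0 : ℝ)) (b := 1)).induction₂' (fun s t => S s → S t) ?_ ?_
      (left_mem_Icc.2 zero_le_one) (right_mem_Icc.2 zero_le_one) h0
    · intro t ht
      obtain ⟨P, hP⟩ := key t ht
      have ht' : S t ↔ P := by
        have := hP.self_of_nhdsWithin ht
        exact this
      filter_upwards [hP] with s hs
      exact ⟨fun h => hs.2 (ht'.1 h), fun h => ht'.2 (hs.1 h)⟩
    · intro x y z _ _ _ h1 h2 h3
      exact h2 (h1 h3)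
  have h2 : g 1 = z := by simp [hg]
  have h3 := h1 d (by rw [h2]; exact hd) (by rw [h2]; exact hd2)
  rwa [h2] at h3

theorem v12Stmt : V12Stmt := by
  intro n Γ _ C Q h
  have hS : Stp C Q := h
  refine C.conn Q ?_
  intro γ a b z hz h1 h2 hQ
  have hzΩ : z ∈ C.Ω a := C.O_sub a b hz
  obtain ⟨d, hd, hd2⟩ := C.cover a z hzΩ
  have hd3 : C.T a d z ∈ ball (C.c d) (2 * C.r d) :=
    ball_subset_ball (by linarith [C.r_pos d]) hd2
  have h3 := hS.path hzΩ hQ d hd hd3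
  by_contra hn
  have hO : C.T a b z ∈ C.O b d := mem_O_of C hz hd
  have h4 := hS.not.path (γ := γ * C.κ a b z) (C.O_sub b a (C.T_mem a b z hz)) hn d hO
    (by rw [← C.trans_T a b d _ hz hO]; exact hd3)
  rw [mul_assoc, ← C.trans_κ a b d _ hz hO] at h4
  exact h4 h3

end Vale.Agent.P284.H894.V
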