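import Vale.Agent.P284.H894.V.Fin6
import Vale.Agent.P284.H359.V6

/-! # P284 (helper894): theorem V -/

namespace Vale.Agent.P284.H894.V

theorem exConcl : ExConcl := exConcl_of H359.V.v6Stmt

theorem part1 : Part1 := part1_of6 H359.V.v6Stmt

theorem part2 : Part2 := part2_of6 H359.V.v6Stmt

theorem part3 : Part3 := part3_of6 H359.V.v6Stmt

end Vale.Agent.P284.H894.V
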