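import Vale.Agent.P284.H894.G.Defs
import Vale.Agent.P284.H894.G.Amen
import Mathlib.MeasureTheory.Integral.Bochner.Set
import Mathlib.MeasureTheory.Measure.Lebesgue.Complex
import Mathlib.GroupTheory.Index

/-!
# P284 (helper894, helper427): pluriharmonic functions on amenable coverings of compact Kähler
manifolds. Definitions used in the hand-in. FROZEN.
-/

open scoped Manifold ContDiff Topology Pointwise ComplexConjugate
open Filter Set Metric MeasureTheory

noncomputable section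

namespace Vale.Agent.P284.H894.V

open Vale.Agent.P272.K

/-- The group has a subgroup of finite index which maps onto `ℤ`. -/
def VirtIndicable (G : Type*) [Group G] : Prop :=
  ∃ H : Subgroup G, H.FiniteIndex ∧ ∃ φ : H →* Multiplicative ℤ, Function.Surjective φ

section
variable {n : ℕ} {X : Type} [TopologicalSpace X] [ChartedSpace (Cm n) X]

/-- The function `u` on the covering space `E` of `X` is pluriharmonic, with gradient bounded by `B` in
the metric `w`: in the charts of `X` it is a smooth function `g` with `∂∂̄g = 0` and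
`(dg(v))² ≤ B Σ w_{j k̄} v_j v̄_k`. -/
def IsPHB {E : Type} [TopologicalSpace E] (p : E → X)
    (w : Chart n X → Cm n → Matrix (Fin n) (Fin n) ℂ) (u : E → ℝ) (B : ℝ) : Prop :=
  ∀ (y : E) (e : Chart n X), At e (p y) → ∃ g : Cm n → ℝ,
    (∀ᶠ y' in 𝓝 y, u y' = g (e (p y'))) ∧
    (∀ᶠ z in 𝓝 (e (p y)), ContDiffAt ℝ ∞ g z ∧ cHess g z = 0) ∧
    ∀ v : Cm n, fderiv ℝ g (e (p y)) v ^ 2 ≤
      B * (∑ j, ∑ k, w e (e (p y)) j k * v j * conj (v k)).re

/-- The energy density `|dΦ|²` of a map `Φ : ℂⁿ → X` for the metric `w` (with the complex partial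
derivatives `∂Φ/∂ζ_j`, in the preferred chart at `Φ ζ`). -/
def enDens (w : Chart n X → Cm n → Matrix (Fin n) (Fin n) ℂ) (Φ : Cm n → X) (ζ : Cm n) : ℝ :=
  (∑ j, ∑ k, ∑ l, w (chartAt (Cm n) (Φ ζ)) (chartAt (Cm n) (Φ ζ) (Φ ζ)) k l *
    dz j (fun ξ => chartAt (Cm n) (Φ ζ) (Φ ξ) k) ζ *
    conj (dz j (fun ξ => chartAt (Cm n) (Φ ζ) (Φ ξ) l) ζ)).re

/-- `Φ : ℂⁿ → X` is holomorphic, nondegenerate and of finite order: the energy (the area, for the
Kähler form) of the polydiscs of radius `r` is at most `C r ^ ρ`. -/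
structure FiniteOrder (w : Chart n X → Cm n → Matrix (Fin n) (Fin n) ℂ) (Φ : Cm n → X) : Prop where
  holo : ContMDiff 𝓘(ℂ, Cm n) 𝓘(ℂ, Cm n) ω Φ
  nondeg : ∃ ζ, Function.Injective (mfderiv 𝓘(ℂ, Cm n) 𝓘(ℂ, Cm n) Φ ζ)
  order : ∃ C ρ : ℝ, ∀ r : ℝ, 1 ≤ r → ∫ ζ in ball (0 : Cm n) r, enDens w Φ ζ ≤ C * r ^ ρ

end

end Vale.Agent.P284.H894.V
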