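import Vale.Agent.P284.H894.V.Spec
import Vale.Agent.P272.K.C2.Wirt

/-! # P284 (helper894), block V13: assembly of the almost pluriharmonic functions -/

open scoped Manifold ContDiff Topology Pointwise ComplexConjugate
open Filter Set Metric MeasureTheory

noncomputable section

namespace Vale.Agent.P284.H894.V

open Vale.Agent.P272.K Vale.Agent.P284.H248 Vale.Agent.P284.H894 Vale.Agent.P284.H894.G

namespace Asm

section loc
variable {n : ℕ} {w : Cm n → Matrix (Fin n) (Fin n) ℂ} {f g h : Cm n → ℝ} {z : Cm n}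

theorem dz_add' (j : Fin n) (hf : DifferentiableAt ℝ f z) (hg : DifferentiableAt ℝ g z) :
    dz j (fun y => (((f y + g y : ℝ)) : ℂ)) z =
      dz j (fun y => (f y : ℂ)) z + dz j (fun y => (g y : ℂ)) z := by
  rw [← C2.dz_add j (C2.differentiableAt_ofReal hf) (C2.differentiableAt_ofReal hg)]
  congr 1
  funext y
  push_cast
  rfl

theorem dz_smul' (j : Fin n) (c : ℝ) (hf : DifferentiableAt ℝ f z) :
    dz j (fun y => (((c * f y : ℝ)) : ℂ)) z = c * dz j (fun y => (f y : ℂ)) z := by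
  rw [← C2.dz_const_mul j (c : ℂ) (C2.differentiableAt_ofReal hf)]
  congr 1
  funext y
  push_cast
  rfl

theorem gr_add (hf : DifferentiableAt ℝ f z) (hg : DifferentiableAt ℝ g z) :
    gr w (fun y => f y + g y) h z = gr w f h z + gr w g h z := by
  unfold gr
  rw [← Complex.add_re, ← Finset.sum_add_distrib]
  congr 1
  refine Finset.sum_congr rfl fun j _ => ?_
  rw [← Finset.sum_add_distrib]
  refine Finset.sum_congr rfl fun k _ => ?_
  rw [dz_add' j hf hg]
  ring

theorem gr_smul (c : ℝ) (hf : DifferentiableAt ℝ f z) :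
    gr w (fun y => c * f y) h z = c * gr w f h z := by
  unfold gr
  rw [← Complex.re_ofReal_mul, Finset.mul_sum]
  congr 1
  refine Finset.sum_congr rfl fun j _ => ?_
  rw [Finset.mul_sum]
  refine Finset.sum_congr rfl fun k _ => ?_
  rw [dz_smul' j c hf]
  ring

theorem lap_add (hf : ContDiffAt ℝ 2 f z) (hg : ContDiffAt ℝ 2 g z) :
    lap w (fun y => f y + g y) z = lap w f z + lap w g z := by
  unfold lap
  rw [C2.cHess_add hf hg, Matrix.mul_add, Matrix.trace_add, Complex.add_re]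

theorem lap_smul (c : ℝ) (hf : ContDiffAt ℝ 2 f z) :
    lap w (fun y => c * f y) z = c * lap w f z := by
  unfold lap
  rw [C2.cHess_const_mul c hf]
  simp [Matrix.trace_smul]

end loc

variable {n : ℕ} {Γ : Type} [Group Γ]

theorem Int_congr {C : Coc n Γ} (P : PU C) (K : KM C) {G H : Γ → C.I → Cm n → ℝ}
    (h : ∀ γ a, ∀ z ∈ C.V a, G γ a z = H γ a z) : Int P K G = Int P K H := by
  unfold Int
  refine tsum_congr fun γ => Finset.sum_congr rfl fun a _ => ?_
  refine setIntegral_congr_fun (isOpen_ball.measurableSet) fun z hz => ?_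
  simp only [h γ a z hz]

theorem V_sub_Ω (C : Coc n Γ) (a : C.I) : C.V a ⊆ C.Ω a :=
  ball_subset_ball (by linarith [C.r_pos a])

/-- the space of test functions -/
def tst (C : Coc n Γ) : Submodule ℝ (Γ → C.I → Cm n → ℝ) where
  carrier := {f | IsTst C f}
  add_mem' := by
    intro f g hf hg
    refine ⟨fun γ a z hz => (hf.smooth γ a z hz).add (hg.smooth γ a z hz),
      fun γ a b z hz => ?_, ?_, fun γ a z hz => ?_⟩
    · show f γ a z + g γ a z = _
      rw [hf.compat γ a b z hz, hg.compat γ a b z hz]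
      rfl
    · refine (hf.fin.union hg.fin).subset ?_
      rintro γ ⟨a, z, hz, hne⟩
      by_contra hn
      simp only [mem_union, mem_ofPred_eq, not_or, not_exists, not_and, not_not] at hn
      refine hne ?_
      show f γ a z + g γ a z = 0
      rw [hn.1 a z hz, hn.2 a z hz, add_zero]
    · show f γ a z + g γ a z = 0
      rw [IsTst.out hf γ a z hz, IsTst.out hg γ a z hz, add_zero]
  zero_mem' := by
    refine ⟨fun γ a z _ => contDiffAt_const, fun _ _ _ _ _ => rfl, ?_, fun _ _ _ _ => rfl⟩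
    convert Set.finite_empty
    ext γ
    simp
  smul_mem' := by
    intro c f hf
    refine ⟨fun γ a z hz => contDiffAt_const.mul (hf.smooth γ a z hz),
      fun γ a b z hz => ?_, ?_, fun γ a z hz => ?_⟩
    · show c * f γ a z = _
      rw [hf.compat γ a b z hz]
      rfl
    · refine hf.fin.subset ?_
      rintro γ ⟨a, z, hz, hne⟩
      refine ⟨a, z, hz, fun h0 => hne ?_⟩
      show c * f γ a z = 0
      rw [h0, mul_zero]
    · show c * f γ a z = 0
      rw [IsTst.out hf γ a z hz, mul_zero]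

variable {C : Coc n Γ}

theorem diff {f : Γ → C.I → Cm n → ℝ} (hf : IsTst C f) (γ : Γ) (a : C.I) {z : Cm n}
    (hz : z ∈ C.V a) : DifferentiableAt ℝ (f γ a) z :=
  (hf.smooth γ a z (V_sub_Ω C a hz)).differentiableAt (by simp)

theorem cd2 {f : Γ → C.I → Cm n → ℝ} (hf : IsTst C f) (γ : Γ) (a : C.I) {z : Cm n}
    (hz : z ∈ C.Ω a) : ContDiffAt ℝ 2 (f γ a) z :=
  (hf.smooth γ a z hz).of_le (WithTop.coe_le_coe.2 (by simp))

/-- `Int (f h)` -/
def ipF (h3 : V3Stmt) (h5 : V5Concl) (P : PU C) (K : KM C) : tst C →ₗ[ℝ] tst C →ₗ[ℝ] ℝ :=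
  LinearMap.mk₂ ℝ (fun f h => Int P K fun γ a z => (f : Γ → C.I → Cm n → ℝ) γ a z *
      (h : Γ → C.I → Cm n → ℝ) γ a z)
    (by
      intro f g h
      have h1 := h3.lin C P K _ _ 1 1 (h5.fam C K f h f.2 h.2).1 (h5.fam C K g h g.2 h.2).1
      rw [one_mul, one_mul] at h1
      rw [← h1]
      refine Int_congr P K fun γ a z _ => ?_
      show ((f : Γ → C.I → Cm n → ℝ) γ a z + (g : Γ → C.I → Cm n → ℝ) γ a z) * _ = _
      ring)
    (by
      intro c f h
      have h1 := h3.lin C P K _ _ c 0 (h5.fam C K f h f.2 h.2).1 (h5.fam C K f h f.2 h.2).1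
      rw [zero_mul, add_zero] at h1
      rw [smul_eq_mul, ← h1]
      refine Int_congr P K fun γ a z _ => ?_
      show (c * (f : Γ → C.I → Cm n → ℝ) γ a z) * _ = _
      ring)
    (by
      intro f g h
      have h1 := h3.lin C P K _ _ 1 1 (h5.fam C K f g f.2 g.2).1 (h5.fam C K f h f.2 h.2).1
      rw [one_mul, one_mul] at h1
      rw [← h1]
      refine Int_congr P K fun γ a z _ => ?_
      show _ * ((g : Γ → C.I → Cm n → ℝ) γ a z + (h : Γ → C.I → Cm n → ℝ) γ a z) = _
      ring)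
    (by
      intro c f h
      have h1 := h3.lin C P K _ _ c 0 (h5.fam C K f h f.2 h.2).1 (h5.fam C K f h f.2 h.2).1
      rw [zero_mul, add_zero] at h1
      rw [smul_eq_mul, ← h1]
      refine Int_congr P K fun γ a z _ => ?_
      show _ * (c * (h : Γ → C.I → Cm n → ℝ) γ a z) = _
      ring)

/-- the Dirichlet form -/
def enF (hP : VPStmt) (h3 : V3Stmt) (h5 : V5Concl) (P : PU C) (K : KM C) :
    tst C →ₗ[ℝ] tst C →ₗ[ℝ] ℝ :=
  LinearMap.mk₂ ℝ (fun f h => Int P K (Gr K (f : Γ → C.I → Cm n → ℝ) h))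
    (by
      intro f g h
      have h1 := h3.lin C P K _ _ 1 1 (h5.fam C K f h f.2 h.2).2.1 (h5.fam C K g h g.2 h.2).2.1
      rw [one_mul, one_mul] at h1
      rw [← h1]
      refine Int_congr P K fun γ a z hz => ?_
      rw [one_mul, one_mul]
      exact gr_add (diff f.2 γ a hz) (diff g.2 γ a hz))
    (by
      intro c f h
      have h1 := h3.lin C P K _ _ c 0 (h5.fam C K f h f.2 h.2).2.1 (h5.fam C K f h f.2 h.2).2.1
      rw [zero_mul, add_zero] at h1
      rw [smul_eq_mul, ← h1]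
      refine Int_congr P K fun γ a z hz => ?_
      rw [zero_mul, add_zero]
      exact gr_smul c (diff f.2 γ a hz))
    (by
      intro f g h
      have h1 := h3.lin C P K _ _ 1 1 (h5.fam C K f g f.2 g.2).2.1 (h5.fam C K f h f.2 h.2).2.1
      rw [one_mul, one_mul] at h1
      rw [← h1]
      refine Int_congr P K fun γ a z hz => ?_
      rw [one_mul, one_mul]
      have hp := (K.ku a).pos z (V_sub_Ω C a hz)
      show gr _ _ _ z = gr _ _ _ z + gr _ _ _ z
      rw [hP.symm _ _ _ _ hp, hP.symm _ ((f : Γ → C.I → Cm n → ℝ) γ a) _ _ hp,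
        hP.symm _ ((f : Γ → C.I → Cm n → ℝ) γ a) _ _ hp]
      exact gr_add (diff g.2 γ a hz) (diff h.2 γ a hz))
    (by
      intro c f h
      have h1 := h3.lin C P K _ _ c 0 (h5.fam C K f h f.2 h.2).2.1 (h5.fam C K f h f.2 h.2).2.1
      rw [zero_mul, add_zero] at h1
      rw [smul_eq_mul, ← h1]
      refine Int_congr P K fun γ a z hz => ?_
      rw [zero_mul, add_zero]
      have hp := (K.ku a).pos z (V_sub_Ω C a hz)
      show gr _ _ _ z = c * gr _ _ _ z
      rw [hP.symm _ _ _ _ hp, hP.symm _ ((f : Γ → C.I → Cm n → ℝ) γ a) _ _ hp]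
      exact gr_smul c (diff h.2 γ a hz))

/-- the Laplacian -/
def lapF (h5 : V5Concl) (K : KM C) : tst C →ₗ[ℝ] tst C where
  toFun f := ⟨Lap K f, (h5.fam C K f f f.2 f.2).2.2.2.1⟩
  map_add' := by
    intro f g
    apply Subtype.ext
    funext γ a z
    show (C.Ω a).indicator (lap (K.w a) (fun y => (f : Γ → C.I → Cm n → ℝ) γ a y +
        (g : Γ → C.I → Cm n → ℝ) γ a y)) z =
      (C.Ω a).indicator (lap (K.w a) ((f : Γ → C.I → Cm n → ℝ) γ a)) z +
        (C.Ω a).indicator (lap (K.w a) ((g : Γ → C.I → Cm n → ℝ) γ a)) z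
    by_cases hz : z ∈ C.Ω a
    · rw [indicator_of_mem hz, indicator_of_mem hz, indicator_of_mem hz]
      exact lap_add (cd2 f.2 γ a hz) (cd2 g.2 γ a hz)
    · rw [indicator_of_notMem hz, indicator_of_notMem hz, indicator_of_notMem hz, add_zero]
  map_smul' := by
    intro c f
    apply Subtype.ext
    funext γ a z
    show (C.Ω a).indicator (lap (K.w a) (fun y => c * (f : Γ → C.I → Cm n → ℝ) γ a y)) z =
      c * (C.Ω a).indicator (lap (K.w a) ((f : Γ → C.I → Cm n → ℝ) γ a)) z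
    by_cases hz : z ∈ C.Ω a
    · rw [indicator_of_mem hz, indicator_of_mem hz]
      exact lap_smul c (cd2 f.2 γ a hz)
    · rw [indicator_of_notMem hz, indicator_of_notMem hz, mul_zero]

theorem Int_nonneg (h3 : V3Stmt) (P : PU C) (K : KM C) {G : Γ → C.I → Cm n → ℝ} (hG : Fam C G)
    (h : ∀ γ a, ∀ z ∈ C.V a, 0 ≤ G γ a z) : 0 ≤ Int P K G := by
  have h1 := h3.lin C P K _ _ 0 0 hG hG
  have h2 : (0 : ℝ) * Int P K G + 0 * Int P K G = 0 := by ring
  rw [h2] at h1
  have hF : Fam C (fun γ a z => 0 * G γ a z + 0 * G γ a z) := by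
    refine ⟨fun γ a => by simpa using continuousOn_const, fun _ _ _ _ _ => by simp, ?_⟩
    convert Set.finite_empty
    ext γ
    simp
  rw [← h1]
  refine h3.mono C P K _ _ hF hG fun γ a z hz => ?_
  simpa using h γ a z hz

end Asm

open Asm

theorem v13Stmt : V13Stmt := by
  intro hP h3 h5 h7 h8 h9 h10 n Γ _ _ C P K hF ε hε
  have hip : ∀ f h : tst C, ipF h3 h5 P K f h = Int P K fun γ a z =>
      (f : Γ → C.I → Cm n → ℝ) γ a z * (h : Γ → C.I → Cm n → ℝ) γ a z := fun _ _ => rfl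
  have hen : ∀ f h : tst C, enF hP h3 h5 P K f h = Int P K (Gr K (f : Γ → C.I → Cm n → ℝ) h) :=
    fun _ _ => rfl
  have hL : ∀ f : tst C, ((lapF h5 K f : tst C) : Γ → C.I → Cm n → ℝ) = Lap K f := fun _ => rfl
  have hsq : ∀ f : tst C, ipF h3 h5 P K f f = Int P K fun γ a z =>
      (f : Γ → C.I → Cm n → ℝ) γ a z ^ 2 := by
    intro f
    rw [hip]
    exact Int_congr P K fun γ a z _ => (sq _).symm
  obtain ⟨f, hf⟩ := h8 (tst C) (ipF h3 h5 P K) (enF hP h3 h5 P K) (lapF h5 K)
    (fun f h => by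
      rw [hip, hip]
      exact Int_congr P K fun γ a z _ => mul_comm _ _)
    (fun f => by
      rw [hip]
      exact Int_nonneg h3 P K (h5.fam C K f f f.2 f.2).1 fun γ a z _ => mul_self_nonneg _)
    (fun f h => by
      rw [hen, hen]
      exact Int_congr P K fun γ a z hz => hP.symm _ _ _ _ ((K.ku a).pos z (V_sub_Ω C a hz)))
    (fun f => by
      rw [hen]
      exact Int_nonneg h3 P K (h5.fam C K f f f.2 f.2).2.1 fun γ a z hz =>
        (hP.nonneg _ _ _ ((K.ku a).pos z (V_sub_Ω C a hz))).1)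
    (fun f h => by
      rw [hip, hen, hL]
      exact h5.ibp C P K f h f.2 h.2)
    (by
      obtain ⟨l₀, hl₀, h⟩ := h7 n Γ C P K
      refine ⟨l₀, hl₀, fun l hl f δ hδ => ?_⟩
      obtain ⟨v, hv, hlt⟩ := h l hl f f.2 δ hδ
      refine ⟨⟨v, hv⟩, ?_⟩
      rw [hsq]
      exact hlt)
    (fun h hB h0 f => by
      have h1 := h9 n Γ C P K (fun j => h j) (fun j => (h j).2)
        (by
          obtain ⟨B, hB⟩ := hB
          exact ⟨B, fun j => by rw [← hsq]; exact hB j⟩) h0 f f.2
      exact h1)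
    (fun ε hε => by
      obtain ⟨f, hf, hlt⟩ := h10 n Γ C P K hF ε hε
      refine ⟨⟨f, hf⟩, ?_⟩
      rw [hsq, hen]
      exact hlt) ε hε
  refine ⟨f, f.2, ?_⟩
  rw [hip, hen, hL] at hf
  rw [← h5.kahler C P K f f f.2 f.2]
  exact hf

end Vale.Agent.P284.H894.V
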