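import Vale.Agent.P284.H894.V.Defs2
import Vale.Agent.P284.H5.V16
import Vale.Agent.P272.K.INT.Dens

/-! # P284 (helper894): `HasFiniteOrder` implies `FiniteOrder` -/

open scoped Manifold ContDiff Topology
open Filter Set Metric

noncomputable section

namespace Vale.Agent.P284.H894.V

open Vale.Agent.P272.K Vale.Agent.P284.H894.G

theorem HasFiniteOrder.fo {n : ℕ} {X : Type} [TopologicalSpace X] [ChartedSpace (Cm n) X]
    [IsManifold 𝓘(ℂ, Cm n) ω X] {w : Chart n X → Cm n → Matrix (Fin n) (Fin n) ℂ} {Φ : Cm n → X}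
    (h : HasFiniteOrder w Φ) : FiniteOrder w Φ := by
  refine ⟨h.holo, ?_, h.order⟩
  obtain ⟨ζ, hζ⟩ := h.nondeg
  refine ⟨ζ, ?_⟩
  set e := chartAt (Cm n) (Φ ζ) with he
  have hAt : At e (Φ ζ) := H5.V.at_chartAt _
  set τ : Cm n → Cm n := fun ξ => e (Φ ξ) with hτdef
  have hτ : ContDiffAt ℂ ω τ ζ := H5.V.tau_smooth h.holo hAt
  have hmd : MDifferentiableAt 𝓘(ℂ, Cm n) 𝓘(ℂ, Cm n) Φ ζ :=
    h.holo.contMDiffAt.mdifferentiableAt (by simp)
  have h1 : mfderiv 𝓘(ℂ, Cm n) 𝓘(ℂ, Cm n) Φ ζ = fderiv ℂ τ ζ := by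
    rw [hmd.mfderiv]
    simp only [writtenInExtChartAt, mfld_simps, fderivWithin_univ]
    rfl
  rw [h1]
  have hd : DifferentiableAt ℂ τ ζ := hτ.differentiableAt (by simp)
  set J : Matrix (Fin n) (Fin n) ℂ := Matrix.of fun k j => dz j (fun ξ => e (Φ ξ) k) ζ with hJ
  have h2 : ∀ v : Cm n, fderiv ℂ τ ζ v = J.mulVec v := by
    intro v
    funext k
    have h3 : DifferentiableAt ℂ (fun ξ => τ ξ k) ζ := (differentiableAt_pi.1 hd) k
    have h4 : fderiv ℂ τ ζ v k = fderiv ℂ (fun ξ => τ ξ k) ζ v := by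
      rw [fderiv_apply hd]
      rfl
    have h5 : v = ∑ j, v j • (Pi.single j (1 : ℂ) : Cm n) := by
      funext i
      rw [Finset.sum_apply, Finset.sum_eq_single i]
      · simp
      · intro j _ hj
        simp [Pi.single_apply, hj.symm]
      · simp
    rw [h4]
    conv_lhs => rw [h5, map_sum]
    rw [Matrix.mulVec, dotProduct]
    refine Finset.sum_congr rfl fun j _ => ?_
    rw [map_smul, smul_eq_mul, mul_comm, hJ, Matrix.of_apply]
    congr 1
    exact (Vale.Agent.P272.K.INT.dz_of_holo h3 j).symm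
  have key : ∀ a b : Cm n, fderiv ℂ τ ζ a = fderiv ℂ τ ζ b → a = b := by
    intro a b hab
    have h6 : J.mulVec a = J.mulVec b := by
      rw [← h2 a, ← h2 b]
      exact hab
    have h7 : J.mulVec (a - b) = 0 := by rw [Matrix.mulVec_sub, h6, sub_self]
    have h8 : a - b = 0 := by
      by_contra hne
      exact hζ (Matrix.exists_mulVec_eq_zero_iff.1 ⟨a - b, hne, h7⟩)
    exact sub_eq_zero.1 h8
  exact fun a b hab => key a b hab

end Vale.Agent.P284.H894.V
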