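import Vale.Agent.P284.H894.V.V8
import Vale.Agent.P284.H894.V.V12
import Vale.Agent.P284.H894.V.V13
import Vale.Agent.P284.H119.V1
import Vale.Agent.P284.H66.V2
import Vale.Agent.P284.H730.VP
import Vale.Agent.P284.H913.V3
import Vale.Agent.P284.H66.V4
import Vale.Agent.P284.H639.V5
import Vale.Agent.P284.H446.V7L
import Vale.Agent.P284.H958.V9
import Vale.Agent.P284.H66.V10
import Vale.Agent.P284.H513.V11
import Vale.Agent.P284.H35.V14
import Vale.Agent.P284.H639.V15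
import Vale.Agent.P284.H5.V16
import Vale.Agent.P284.H465.V17
import Vale.Agent.P284.H731.V18
import Vale.Agent.P284.H465.V19

/-! # P284 (helper894): assembly of theorem V from V6 -/

namespace Vale.Agent.P284.H894.V

theorem exConcl_of (h6 : V6Stmt) : ExConcl :=
  have h5 := H639.V.v5Stmt H119.V.v1Stmt H66.v2Stmt H730.V.vpStmt H913.V.v3Stmt
  v13Stmt H730.V.vpStmt H913.V.v3Stmt h5
    (H446.V.v7Stmt H730.V.vpStmt H913.V.v3Stmt H66.v4Stmt h5 h6) v8Stmt
    (H958.v9Stmt H730.V.vpStmt H913.V.v3Stmt h5 H513.V.v11Stmt v12Stmt)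
    (H66.v10Stmt H730.V.vpStmt H913.V.v3Stmt h5)

theorem v14Concl : V14Concl :=
  H35.V.v14Stmt H730.V.vpStmt H913.V.v3Stmt
    (H639.V.v5Stmt H119.V.v1Stmt H66.v2Stmt H730.V.vpStmt H913.V.v3Stmt) H513.V.v11Stmt v12Stmt

theorem part1_of6 (h6 : V6Stmt) : Part1 :=
  part1_of H639.V.v15Stmt (exConcl_of h6) v14Concl

theorem part2_of6 (h6 : V6Stmt) : Part2 :=
  part2_of H639.V.v15Stmt (part1_of6 h6) H5.V.v16Stmt H465.V17.v17Stmt H731.V.v18Stmt

theorem part3_of6 (h6 : V6Stmt) : Part3 := H465.V19.v19Stmt (part2_of6 h6)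

end Vale.Agent.P284.H894.V
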