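import Vale.Agent.P284.H894.V.Spec

/-! # P284 (helper894), block V8: the abstract lemma -/

open Filter Set Metric Topology

noncomputable section

namespace Vale.Agent.P284.H894.V

namespace Abs

variable {V : Type} [AddCommGroup V] [Module ℝ V]

/-- Cauchy-Schwarz -/
theorem cs {B : V →ₗ[ℝ] V →ₗ[ℝ] ℝ} (hs : ∀ f h, B f h = B h f) (hp : ∀ f, 0 ≤ B f f) (f h : V) :
    B f h ^ 2 ≤ B f f * B h h := by
  have h1 : ∀ t : ℝ, 0 ≤ B h h * (t * t) + (2 * B f h) * t + B f f := by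
    intro t
    have h2 := hp (f + t • h)
    have h3 : B (f + t • h) (f + t • h) = B h h * (t * t) + (2 * B f h) * t + B f f := by
      simp only [map_add, LinearMap.add_apply, map_smul, LinearMap.smul_apply, smul_eq_mul]
      rw [hs h f]; ring
    rwa [h3] at h2
  have h2 := discrim_le_zero h1
  unfold discrim at h2
  nlinarith

/-- seminorm of a form -/
def N (B : V →ₗ[ℝ] V →ₗ[ℝ] ℝ) (f : V) : ℝ := Real.sqrt (B f f)

theorem N_nonneg (B : V →ₗ[ℝ] V →ₗ[ℝ] ℝ) (f : V) : 0 ≤ N B f := Real.sqrt_nonneg _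

theorem N_sq {B : V →ₗ[ℝ] V →ₗ[ℝ] ℝ} (hp : ∀ f, 0 ≤ B f f) (f : V) : N B f ^ 2 = B f f :=
  Real.sq_sqrt (hp f)

theorem abs_le {B : V →ₗ[ℝ] V →ₗ[ℝ] ℝ} (hs : ∀ f h, B f h = B h f) (hp : ∀ f, 0 ≤ B f f)
    (f h : V) : |B f h| ≤ N B f * N B h := by
  have h1 := cs hs hp f h
  rw [← N_sq hp f, ← N_sq hp h, ← mul_pow, ← sq_abs] at h1
  exact (pow_le_pow_iff_left₀ (abs_nonneg _) (mul_nonneg (N_nonneg _ _) (N_nonneg _ _))
    two_ne_zero).1 h1

theorem N_add {B : V →ₗ[ℝ] V →ₗ[ℝ] ℝ} (hs : ∀ f h, B f h = B h f) (hp : ∀ f, 0 ≤ B f f)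
    (f h : V) : N B (f + h) ≤ N B f + N B h := by
  have h1 : N B (f + h) ^ 2 ≤ (N B f + N B h) ^ 2 := by
    rw [N_sq hp]
    have h2 : B (f + h) (f + h) = B f f + 2 * B f h + B h h := by
      simp only [map_add, LinearMap.add_apply]
      rw [hs h f]; ring
    have h3 := (le_abs_self _).trans (abs_le hs hp f h)
    rw [h2, ← N_sq hp f, ← N_sq hp h]
    nlinarith
  exact (pow_le_pow_iff_left₀ (N_nonneg _ _) (add_nonneg (N_nonneg _ _) (N_nonneg _ _))
    two_ne_zero).1 h1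

theorem N_smul {B : V →ₗ[ℝ] V →ₗ[ℝ] ℝ} (r : ℝ) (f : V) : N B (r • f) = |r| * N B f := by
  unfold N
  have : B (r • f) (r • f) = r ^ 2 * B f f := by
    simp only [map_smul, LinearMap.smul_apply, smul_eq_mul]; ring
  rw [this, Real.sqrt_mul (sq_nonneg r), Real.sqrt_sq_eq_abs]

theorem N_neg {B : V →ₗ[ℝ] V →ₗ[ℝ] ℝ} (f : V) : N B (-f) = N B f := by
  unfold N; simp

theorem N_sub {B : V →ₗ[ℝ] V →ₗ[ℝ] ℝ} (hs : ∀ f h, B f h = B h f) (hp : ∀ f, 0 ≤ B f f)
    (f h : V) : N B (f - h) ≤ N B f + N B h := by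
  have h1 := N_add hs hp f (-h)
  rwa [N_neg, ← sub_eq_add_neg] at h1

variable {ip en : V →ₗ[ℝ] V →ₗ[ℝ] ℝ} {L : V →ₗ[ℝ] V}

theorem expand (hs : ∀ f h, ip f h = ip h f) (hL : ∀ f h, ip (L f) h = -en f h) (l : ℝ) (v : V) :
    ip (l • v - L v) (l • v - L v) = l ^ 2 * ip v v + 2 * l * en v v + ip (L v) (L v) := by
  simp only [map_sub, LinearMap.sub_apply, map_smul, LinearMap.smul_apply, smul_eq_mul]
  rw [hs v (L v), hL v v]; ring

/-- `D l` -/
def D (ip : V →ₗ[ℝ] V →ₗ[ℝ] ℝ) (L : V →ₗ[ℝ] V) (l : ℝ) : Prop :=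
  ∀ f, ∀ δ : ℝ, 0 < δ → ∃ v, N ip (l • v - L v - f) < δ

theorem D_of {l : ℝ} (h : ∀ f, ∀ δ : ℝ, 0 < δ → ∃ v, ip (l • v - L v - f) (l • v - L v - f) < δ) :
    D ip L l := by
  intro f δ hδ
  obtain ⟨v, hv⟩ := h f (δ ^ 2) (by positivity)
  exact ⟨v, (Real.sqrt_lt' hδ).2 hv⟩

theorem D_step (hs : ∀ f h, ip f h = ip h f) (hp : ∀ f, 0 ≤ ip f f) (hp' : ∀ f, 0 ≤ en f f)
    (hL : ∀ f h, ip (L f) h = -en f h) {l μ : ℝ} (hμ : 0 < μ) (hl : μ ≤ l) (h : D ip L l) :
    D ip L μ := by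
  have hl0 : 0 < l := hμ.trans_le hl
  set q : ℝ := (l - μ) / l with hq
  have hq0 : 0 ≤ q := div_nonneg (by linarith) hl0.le
  have hq1 : q < 1 := by rw [hq, div_lt_one hl0]; linarith
  have key : ∀ k : ℕ, ∀ f, ∀ δ : ℝ, 0 < δ → ∃ v, N ip (μ • v - L v - f) ≤ q ^ k * N ip f + δ := by
    intro k
    induction k with
    | zero =>
      intro f δ hδ
      refine ⟨0, ?_⟩
      rw [smul_zero, map_zero, sub_zero, zero_sub, N_neg, pow_zero, one_mul]
      linarith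
    | succ k ih =>
      intro f δ hδ
      obtain ⟨v, hv⟩ := ih f (δ / 2) (by positivity)
      obtain ⟨v', hv'⟩ := h (-(μ • v - L v - f)) (δ / 4) (by positivity)
      set r : V := -(μ • v - L v - f) with hr
      set e : V := l • v' - L v' - r with he
      refine ⟨v + v', ?_⟩
      have e1 : μ • (v + v') - L (v + v') - f = e - (l - μ) • v' := by
        rw [he, hr, map_add, smul_add, sub_smul]; abel
      have e2 : l * N ip v' ≤ N ip r + N ip e := by
        have h1 : N ip (l • v' - L v') ≤ N ip r + N ip e := by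
          have : l • v' - L v' = r + e := by rw [he]; abel
          rw [this]; exact N_add hs hp _ _
        refine le_trans ?_ h1
        have h2 : (l * N ip v') ^ 2 ≤ N ip (l • v' - L v') ^ 2 := by
          rw [N_sq hp, expand hs hL, mul_pow, N_sq hp]
          have := hp' v'
          have := hp (L v')
          have : 0 ≤ 2 * l * en v' v' := by positivity
          linarith
        exact (pow_le_pow_iff_left₀ (mul_nonneg hl0.le (N_nonneg _ _)) (N_nonneg _ _)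
          two_ne_zero).1 h2
      have e3 : N ip ((l - μ) • v') = q * (l * N ip v') := by
        rw [N_smul, abs_of_nonneg (by linarith), hq]
        field_simp
      have e4 : N ip r ≤ q ^ k * N ip f + δ / 2 := by rw [hr, N_neg]; exact hv
      rw [e1]
      have e5 := N_sub hs hp e ((l - μ) • v')
      have e6 : q * (l * N ip v') ≤ q * (N ip r + N ip e) := mul_le_mul_of_nonneg_left e2 hq0
      have e7 : q * (N ip r + N ip e) ≤ q * (q ^ k * N ip f + δ / 2) + N ip e := by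
        have h1 : q * N ip r ≤ q * (q ^ k * N ip f + δ / 2) := mul_le_mul_of_nonneg_left e4 hq0
        have h2 : q * N ip e ≤ 1 * N ip e := mul_le_mul_of_nonneg_right hq1.le (N_nonneg _ _)
        rw [mul_add]; linarith
      have e8 : q * (δ / 2) ≤ δ / 2 := by nlinarith
      have e9 : q * (q ^ k * N ip f) = q ^ (k + 1) * N ip f := by rw [pow_succ]; ring
      rw [e3] at e5
      have e10 : N ip e < δ / 4 := hv'
      nlinarith
  intro f δ hδ
  have hlim : Tendsto (fun k : ℕ => q ^ k * N ip f) atTop (𝓝 0) := by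
    have := (tendsto_pow_atTop_nhds_zero_of_lt_one hq0 hq1).mul_const (N ip f)
    rwa [zero_mul] at this
  obtain ⟨k, hk⟩ := (hlim.eventually_lt_const (show (0 : ℝ) < δ / 2 by positivity)).exists
  obtain ⟨v, hv⟩ := key k f (δ / 4) (by positivity)
  exact ⟨v, by linarith⟩

end Abs

open Abs in
theorem v8Stmt : V8Stmt := by
  intro V _ _ ip en L hs hp hs' hp' hL hD hP hF ε hε
  by_contra hcon
  push Not at hcon
  obtain ⟨l₀, hl₀, hD⟩ := hD
  have hDall : ∀ μ : ℝ, 0 < μ → D ip L μ := by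
    intro μ hμ
    exact D_step hs hp hp' hL hμ (le_max_left μ l₀) (D_of (hD _ (le_max_right μ l₀)))
  obtain ⟨f, hf⟩ := hF ε hε
  -- the approximate solutions
  have hex : ∀ j : ℕ, ∃ v, N ip ((1 / ((j : ℝ) + 1)) • v - L v - f) < 1 / ((j : ℝ) + 1) := fun j =>
    hDall _ (by positivity) f _ (by positivity)
  choose v hv using hex
  have hμ0 : ∀ j : ℕ, (0 : ℝ) < 1 / ((j : ℝ) + 1) := fun j => by positivity
  have hμ1 : ∀ j : ℕ, 1 / ((j : ℝ) + 1) ≤ 1 := by
    intro j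
    rw [div_le_one (by positivity)]
    have := Nat.cast_nonneg (α := ℝ) j
    linarith
  have hlimμ : Tendsto (fun j : ℕ => 1 / ((j : ℝ) + 1)) atTop (𝓝 0) :=
    tendsto_one_div_add_atTop_nhds_zero_nat
  have hB : ∀ j : ℕ, N ip ((1 / ((j : ℝ) + 1)) • v j - L (v j)) ≤ N ip f + 1 / ((j : ℝ) + 1) := by
    intro j
    have h1 : (1 / ((j : ℝ) + 1)) • v j - L (v j) =
        f + ((1 / ((j : ℝ) + 1)) • v j - L (v j) - f) := by abel
    rw [h1]
    exact (N_add hs hp _ _).trans (by linarith [hv j])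
  have hex2 : ∀ j : ℕ, (1 / ((j : ℝ) + 1)) ^ 2 * ip (v j) (v j) + 2 * (1 / ((j : ℝ) + 1)) *
      en (v j) (v j) + ip (L (v j)) (L (v j)) ≤ (N ip f + 1 / ((j : ℝ) + 1)) ^ 2 := by
    intro j
    rw [← expand hs hL, ← N_sq hp]
    exact pow_le_pow_left₀ (N_nonneg _ _) (hB j) 2
  have hB2 : ∀ j : ℕ, (N ip f + 1 / ((j : ℝ) + 1)) ^ 2 ≤ (N ip f + 1) ^ 2 := fun j =>
    pow_le_pow_left₀ (add_nonneg (N_nonneg _ _) (hμ0 j).le) (by linarith [hμ1 j]) 2
  have h1 : ∃ B : ℝ, ∀ j : ℕ, ip ((1 / ((j : ℝ) + 1)) • v j) ((1 / ((j : ℝ) + 1)) • v j) ≤ B := by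
    refine ⟨(N ip f + 1) ^ 2, fun j => ?_⟩
    have e1 : ip ((1 / ((j : ℝ) + 1)) • v j) ((1 / ((j : ℝ) + 1)) • v j) =
        (1 / ((j : ℝ) + 1)) ^ 2 * ip (v j) (v j) := by
      simp only [map_smul, LinearMap.smul_apply, smul_eq_mul]; ring
    rw [e1]
    have e2 : 0 ≤ 2 * (1 / ((j : ℝ) + 1)) * en (v j) (v j) :=
      mul_nonneg (mul_nonneg zero_le_two (hμ0 j).le) (hp' _)
    linarith [hex2 j, hB2 j, hp (L (v j))]
  have h2 : Tendsto (fun j : ℕ => en ((1 / ((j : ℝ) + 1)) • v j) ((1 / ((j : ℝ) + 1)) • v j)) atTop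
      (𝓝 0) := by
    have e1 : ∀ j : ℕ, en ((1 / ((j : ℝ) + 1)) • v j) ((1 / ((j : ℝ) + 1)) • v j) ≤
        (1 / ((j : ℝ) + 1)) * (N ip f + 1) ^ 2 := by
      intro j
      have e2 : en ((1 / ((j : ℝ) + 1)) • v j) ((1 / ((j : ℝ) + 1)) • v j) =
          (1 / ((j : ℝ) + 1)) * ((1 / ((j : ℝ) + 1)) * en (v j) (v j)) := by
        simp only [map_smul, LinearMap.smul_apply, smul_eq_mul]
      rw [e2]
      refine mul_le_mul_of_nonneg_left ?_ (hμ0 j).le
      have e3 : 0 ≤ (1 / ((j : ℝ) + 1)) ^ 2 * ip (v j) (v j) := mul_nonneg (sq_nonneg _) (hp _)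
      have e4 : 0 ≤ (1 / ((j : ℝ) + 1)) * en (v j) (v j) := mul_nonneg (hμ0 j).le (hp' _)
      linarith [hex2 j, hB2 j, hp (L (v j))]
    have e5 : Tendsto (fun j : ℕ => (1 / ((j : ℝ) + 1)) * (N ip f + 1) ^ 2) atTop (𝓝 0) := by
      have := hlimμ.mul_const ((N ip f + 1) ^ 2)
      rwa [zero_mul] at this
    exact squeeze_zero (fun j => hp' _) e1 e5
  have h3 := hP _ h1 h2 f
  -- the inequality
  have h4 : ∀ j : ℕ, ip f f ≤ ip ((1 / ((j : ℝ) + 1)) • v j) f +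
      (N ip f + 1 / ((j : ℝ) + 1)) / Real.sqrt ε * N en f + 1 / ((j : ℝ) + 1) * N ip f := by
    intro j
    set μ : ℝ := 1 / ((j : ℝ) + 1) with hμ
    have e2 : ip f f = ip (μ • v j) f + en (v j) f - ip (μ • v j - L (v j) - f) f := by
      have h0 : ip (μ • v j - L (v j) - f) f = ip (μ • v j) f - ip (L (v j)) f - ip f f := by
        rw [map_sub, map_sub, LinearMap.sub_apply, LinearMap.sub_apply]
      rw [h0, hL]; ring
    have e3 : |ip (μ • v j - L (v j) - f) f| ≤ μ * N ip f :=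
      (abs_le hs hp _ _).trans (mul_le_mul_of_nonneg_right (hv j).le (N_nonneg _ _))
    have e4 : |en (v j) f| ≤ (N ip f + μ) / Real.sqrt ε * N en f := by
      refine (abs_le hs' hp' _ _).trans (mul_le_mul_of_nonneg_right ?_ (N_nonneg _ _))
      rw [le_div_iff₀ (Real.sqrt_pos.2 hε)]
      have e5 : (N en (v j) * Real.sqrt ε) ^ 2 ≤ (N ip f + μ) ^ 2 := by
        rw [mul_pow, N_sq hp', Real.sq_sqrt hε.le]
        have e6 := hcon (v j)
        have e7 : 0 ≤ μ ^ 2 * ip (v j) (v j) := mul_nonneg (sq_nonneg _) (hp _)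
        have e8 : 0 ≤ 2 * μ * en (v j) (v j) :=
          mul_nonneg (mul_nonneg zero_le_two (hμ0 j).le) (hp' _)
        linarith [hex2 j]
      exact (pow_le_pow_iff_left₀ (mul_nonneg (N_nonneg _ _) (Real.sqrt_nonneg _))
        (add_nonneg (N_nonneg _ _) (hμ0 j).le) two_ne_zero).1 e5
    rw [e2]
    have := neg_le_of_abs_le e3
    have := le_of_abs_le e4
    linarith
  have h5 : ip f f ≤ N ip f / Real.sqrt ε * N en f := by
    have hlim : Tendsto (fun j : ℕ => ip ((1 / ((j : ℝ) + 1)) • v j) f +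
        (N ip f + 1 / ((j : ℝ) + 1)) / Real.sqrt ε * N en f + 1 / ((j : ℝ) + 1) * N ip f) atTop
        (𝓝 (0 + (N ip f + 0) / Real.sqrt ε * N en f + 0 * N ip f)) :=
      (h3.add (((hlimμ.const_add _).div_const _).mul_const _)).add (hlimμ.mul_const _)
    have := ge_of_tendsto' hlim h4
    simpa using this
  have h6 : 0 ≤ N ip f := N_nonneg _ _
  rcases h6.eq_or_lt with h7 | h7
  · have : ip f f = 0 := by rw [← N_sq hp, ← h7]; ring
    rw [this, mul_zero] at hf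
    exact absurd (hp' f) (not_le.2 hf)
  · rw [← N_sq hp] at h5 hf
    have h8 : N ip f ≤ N en f / Real.sqrt ε := by
      have e1 : N ip f * N ip f ≤ N ip f * (N en f / Real.sqrt ε) := by
        calc N ip f * N ip f = N ip f ^ 2 := by ring
          _ ≤ _ := h5
          _ = _ := by ring
      exact le_of_mul_le_mul_left e1 h7
    rw [le_div_iff₀ (Real.sqrt_pos.2 hε)] at h8
    have h9 : (N ip f * Real.sqrt ε) ^ 2 ≤ N en f ^ 2 :=
      pow_le_pow_left₀ (mul_nonneg h7.le (Real.sqrt_nonneg _)) h8 2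
    rw [mul_pow, Real.sq_sqrt hε.le, N_sq hp'] at h9
    linarith

end Vale.Agent.P284.H894.V
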